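import Vale.Agent.P196.Defs
import Mathlib.GroupTheory.QuotientGroup.Basic
import Mathlib.Analysis.SpecificLimits.Normed
import Mathlib.Tactic

/-!
# [EXT] A central extension of an amenable group is amenable (Foelner form)
-/

namespace Vale.Agent.P196.H743

open Finset

section Comm

variable {Z : Type*} [CommGroup Z]

open Classical in
/-- boxes in the group generated by `C` -/
noncomputable def box (C : Finset Z) (n : ℕ) : Finset Z :=
  (Fintype.piFinset (fun _ : C => range n)).image (fun a => ∏ c : C, (c : Z) ^ a c)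

theorem box_mono (C : Finset Z) (n : ℕ) : box C n ⊆ box C (n + 1) := by
  classical
  apply image_subset_image
  apply Fintype.piFinset_subset
  intro c
  exact range_subset_range.mpr (Nat.le_succ n)

theorem box_card (C : Finset Z) (n : ℕ) : (box C n).card ≤ n ^ C.card := by
  classical
  refine card_image_le.trans ?_
  simp

theorem box_nonempty (C : Finset Z) (n : ℕ) : (box C (n + 1)).Nonempty := by
  classical
  refine Nonempty.image ?_ _
  exact ⟨fun _ => 0, by simp⟩

theorem mul_box (C : Finset Z) (n : ℕ) {c : Z} (hc : c ∈ C) {x : Z} (hx : x ∈ box C n) :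
    c * x ∈ box C (n + 1) := by
  classical
  obtain ⟨a, ha, rfl⟩ := mem_image.mp hx
  refine mem_image.mpr ⟨fun d => a d + (if d = ⟨c, hc⟩ then 1 else 0), ?_, ?_⟩
  · rw [Fintype.mem_piFinset] at ha ⊢
    intro d
    have := mem_range.mp (ha d)
    split_ifs <;> simp <;> omega
  · simp only [pow_add, Finset.prod_mul_distrib]
    rw [mul_comm c]
    congr 1
    rw [Finset.prod_eq_single (⟨c, hc⟩ : C)]
    · simp
    · intro b _ hb; simp [hb]
    · intro h; exact absurd (mem_univ _) h

open Classical in
theorem comm_folner (C : Finset Z) (ε : ℝ) (hε : 0 < ε) : ∃ F : Finset Z, F.Nonempty ∧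
    ∀ c ∈ C, (((F.image (fun x => c * x)) \ F).card : ℝ) ≤ ε * F.card := by
  by_contra hcon
  push Not at hcon
  have step : ∀ n : ℕ, (1 + ε) * ((box C (n + 1)).card : ℝ) ≤ ((box C (n + 2)).card : ℝ) := by
    intro n
    obtain ⟨c, hc, hlt⟩ := hcon _ (box_nonempty C n)
    have h1 : (box C (n + 1)) ∪ ((box C (n + 1)).image (fun x => c * x) \ (box C (n + 1))) ⊆
        box C (n + 2) := by
      apply union_subset (box_mono C (n + 1))
      intro y hy
      obtain ⟨x, hx, rfl⟩ := mem_image.mp (mem_sdiff.mp hy).1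
      exact mul_box C (n + 1) hc hx
    have h2 := card_le_card h1
    rw [card_union_of_disjoint disjoint_sdiff] at h2
    have h3 : ((box C (n + 1)).card : ℝ) + (((box C (n + 1)).image (fun x => c * x) \
        (box C (n + 1))).card : ℝ) ≤ ((box C (n + 2)).card : ℝ) := by exact_mod_cast h2
    linarith
  have hpow : ∀ n : ℕ, (1 + ε) ^ n ≤ ((box C (n + 1)).card : ℝ) := by
    intro n
    induction n with
    | zero =>
      have : 0 < (box C (0 + 1)).card := (box_nonempty C 0).card_pos
      simpa using (by exact_mod_cast this : (1 : ℝ) ≤ ((box C (0 + 1)).card : ℝ))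
    | succ n ih =>
      rw [pow_succ, mul_comm]
      exact (mul_le_mul_of_nonneg_left ih (by linarith)).trans (step n)
  have hlim := tendsto_pow_const_div_const_pow_of_one_lt C.card (show 1 < 1 + ε by linarith)
  have hev := hlim.eventually (gt_mem_nhds (show (0 : ℝ) < 1 / (1 + ε) by positivity))
  obtain ⟨N, hN⟩ := Filter.eventually_atTop.mp hev
  have h1 := hN (N + 1) (by omega)
  have h2 := hpow N
  have h3 : ((box C (N + 1)).card : ℝ) ≤ ((N + 1 : ℕ) : ℝ) ^ C.card := by
    exact_mod_cast box_card C (N + 1)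
  rw [div_lt_div_iff₀ (by positivity) (by positivity)] at h1
  have h4 : (1 + ε) ^ (N + 1) = (1 + ε) ^ N * (1 + ε) := pow_succ _ _
  rw [one_mul, h4] at h1
  have h5 : ((N + 1 : ℕ) : ℝ) ^ C.card < (1 + ε) ^ N :=
    lt_of_mul_lt_mul_right h1 (by linarith)
  linarith

end Comm

open Classical in
theorem symmDiff_image_card {G : Type*} [Group G] (g : G) (D : Finset G) :
    (symmDiff (D.image (fun x => g * x)) D).card = 2 * ((D.image (fun x => g * x)) \ D).card := by
  have hc : (D.image (fun x => g * x)).card = D.card :=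
    card_image_of_injective _ (mul_right_injective g)
  have h1 : ((D.image (fun x => g * x)) \ D).card = (D \ (D.image (fun x => g * x))).card := by
    have e1 := card_sdiff_add_card_inter (D.image (fun x => g * x)) D
    have e2 := card_sdiff_add_card_inter D (D.image (fun x => g * x))
    rw [inter_comm] at e2
    omega
  rw [symmDiff_def, sup_eq_union, card_union_of_disjoint]
  · rw [← h1]; ring
  · exact disjoint_sdiff_sdiff

/-- **[EXT]** -/
theorem isAmenable_of_central_quotient (E : Type*) [Group E] (K : Subgroup E) [K.Normal]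
    (hK : K ≤ Subgroup.center E) (h : Vale.Agent.P196.IsAmenable (E ⧸ K)) :
    Vale.Agent.P196.IsAmenable E := by
  classical
  intro S ε hε
  set δ : ℝ := ε / 5 with hδ
  have hδ0 : 0 < δ := by positivity
  obtain ⟨D, hD, hSD⟩ := h (S.image (fun s : E => (s : E ⧸ K))) δ hδ0
  let _ : CommGroup K := { (inferInstance : Group K) with
    mul_comm := fun a b => by
      apply Subtype.ext
      have := Subgroup.mem_center_iff.mp (hK a.2) (b : E)
      simp only [Subgroup.coe_mul]
      exact this.symm }
  let σ : E ⧸ K → E := Quotient.out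
  have hσ : ∀ q, ((σ q : E) : E ⧸ K) = q := fun q => Quotient.out_eq' q
  have hk : ∀ (s : E) (q : E ⧸ K), (σ ((s : E ⧸ K) * q))⁻¹ * s * σ q ∈ K := by
    intro s q
    rw [← QuotientGroup.eq_one_iff]
    simp [hσ, mul_assoc]
  let k : E × (E ⧸ K) → K := fun p => ⟨_, hk p.1 p.2⟩
  obtain ⟨F, hF, hCF⟩ := comm_folner ((S ×ˢ D).image k) δ hδ0
  let φ : (E ⧸ K) × K → E := fun p => σ p.1 * (p.2 : E)
  have hφ : Function.Injective φ := by
    rintro ⟨q, a⟩ ⟨q', a'⟩ hqa
    have h1 : q = q' := by
      have := congrArg (fun x : E => (x : E ⧸ K)) hqa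
      have ha : ((a : E) : E ⧸ K) = 1 := (QuotientGroup.eq_one_iff _).mpr a.2
      have ha' : ((a' : E) : E ⧸ K) = 1 := (QuotientGroup.eq_one_iff _).mpr a'.2
      simpa [φ, hσ, ha, ha'] using this
    subst h1
    have h2 : (a : E) = a' := by simpa [φ] using hqa
    rw [Subtype.ext h2]
  refine ⟨(D ×ˢ F).image φ, (hD.product hF).image _, ?_⟩
  intro s hs
  rw [symmDiff_image_card]
  have hcard : (((D ×ˢ F).image φ).card : ℝ) = D.card * F.card := by
    rw [card_image_of_injective _ hφ, card_product]; push_cast; ring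
  have hsub : ((D ×ˢ F).image φ).image (fun x => s * x) \ (D ×ˢ F).image φ ⊆
      (((D.filter (fun q => (s : E ⧸ K) * q ∉ D)) ×ˢ F) ∪
        (D.biUnion fun q => (F.filter (fun a => k (s, q) * a ∉ F)).image
          (fun a => (q, a)))).image (fun p => s * φ p) := by
    intro x hx
    obtain ⟨hx1, hx2⟩ := mem_sdiff.mp hx
    obtain ⟨y, hy, rfl⟩ := mem_image.mp hx1
    obtain ⟨⟨q, a⟩, hqa, rfl⟩ := mem_image.mp hy
    obtain ⟨hq, ha⟩ := mem_product.mp hqa
    refine mem_image.mpr ⟨(q, a), ?_, rfl⟩
    by_cases hsq : (s : E ⧸ K) * q ∈ D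
    · apply mem_union_right
      refine mem_biUnion.mpr ⟨q, hq, mem_image.mpr ⟨a, mem_filter.mpr ⟨ha, ?_⟩, rfl⟩⟩
      intro hka
      apply hx2
      refine mem_image.mpr ⟨((s : E ⧸ K) * q, k (s, q) * a), mem_product.mpr ⟨hsq, hka⟩, ?_⟩
      show σ ((s : E ⧸ K) * q) * ((σ ((s : E ⧸ K) * q))⁻¹ * s * σ q * (a : E)) = s * (σ q * a)
      group
    · apply mem_union_left
      exact mem_product.mpr ⟨mem_filter.mpr ⟨hq, hsq⟩, ha⟩
  have hA : ((D.filter (fun q => (s : E ⧸ K) * q ∉ D)).card : ℝ) ≤ δ * D.card := by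
    have h1 := hSD (s : E ⧸ K) (mem_image_of_mem _ hs)
    have h2 : (D.filter (fun q => (s : E ⧸ K) * q ∉ D)).card ≤
        (symmDiff (D.image (fun x => (s : E ⧸ K) * x)) D).card := by
      rw [← card_image_of_injective (D.filter (fun q => (s : E ⧸ K) * q ∉ D))
        (mul_right_injective (s : E ⧸ K))]
      apply card_le_card
      intro y hy
      obtain ⟨q, hq, rfl⟩ := mem_image.mp hy
      obtain ⟨hq1, hq2⟩ := mem_filter.mp hq
      rw [mem_symmDiff]
      exact Or.inl ⟨mem_image_of_mem _ hq1, hq2⟩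
    have h3 : ((D.filter (fun q => (s : E ⧸ K) * q ∉ D)).card : ℝ) ≤
        ((symmDiff (D.image (fun x => (s : E ⧸ K) * x)) D).card : ℝ) := by exact_mod_cast h2
    refine h3.trans ?_
    convert h1.le
  have hB : ∀ q ∈ D, (((F.filter (fun a => k (s, q) * a ∉ F)).image
      (fun a => (q, a))).card : ℝ) ≤ δ * F.card := by
    intro q hq
    have h1 := hCF (k (s, q)) (mem_image_of_mem _ (mem_product.mpr ⟨hs, hq⟩))
    have h2 : ((F.filter (fun a => k (s, q) * a ∉ F)).image (fun a => (q, a))).card ≤
        ((F.image (fun x => k (s, q) * x)) \ F).card := by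
      refine card_image_le.trans ?_
      rw [← card_image_of_injective (F.filter (fun a => k (s, q) * a ∉ F))
        (mul_right_injective (k (s, q)))]
      apply card_le_card
      intro y hy
      obtain ⟨a, ha, rfl⟩ := mem_image.mp hy
      obtain ⟨ha1, ha2⟩ := mem_filter.mp ha
      exact mem_sdiff.mpr ⟨mem_image_of_mem _ ha1, ha2⟩
    have h3 : (((F.filter (fun a => k (s, q) * a ∉ F)).image (fun a => (q, a))).card : ℝ) ≤
        (((F.image (fun x => k (s, q) * x)) \ F).card : ℝ) := by exact_mod_cast h2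
    refine h3.trans ?_
    have h4 : ((((F.image (fun x => k (s, q) * x)) \ F).card : ℕ) : ℝ) ≤ δ * F.card := by
      convert h1 using 1
      congr!
    exact h4
  have htot : ((((D ×ˢ F).image φ).image (fun x => s * x) \ (D ×ˢ F).image φ).card : ℝ) ≤
      δ * D.card * F.card + D.card * (δ * F.card) := by
    have c1 := (card_le_card hsub).trans (card_image_le.trans (card_union_le _ _))
    rw [card_product] at c1
    have c2 : ((D.biUnion fun q => (F.filter (fun a => k (s, q) * a ∉ F)).image
          (fun a => (q, a))).card : ℝ) ≤ D.card * (δ * F.card) := by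
      have := card_biUnion_le (s := D) (t := fun q =>
        (F.filter (fun a => k (s, q) * a ∉ F)).image (fun a => (q, a)))
      calc ((D.biUnion fun q => (F.filter (fun a => k (s, q) * a ∉ F)).image
          (fun a => (q, a))).card : ℝ) ≤ ∑ q ∈ D, (((F.filter (fun a => k (s, q) * a ∉ F)).image
          (fun a => (q, a))).card : ℝ) := by exact_mod_cast this
        _ ≤ ∑ q ∈ D, δ * F.card := sum_le_sum hB
        _ = D.card * (δ * F.card) := by rw [sum_const, nsmul_eq_mul]
    have c3 : ((((D ×ˢ F).image φ).image (fun x => s * x) \ (D ×ˢ F).image φ).card : ℝ) ≤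
        ((D.filter (fun q => (s : E ⧸ K) * q ∉ D)).card : ℝ) * F.card +
        ((D.biUnion fun q => (F.filter (fun a => k (s, q) * a ∉ F)).image
          (fun a => (q, a))).card : ℝ) := by exact_mod_cast c1
    have c4 := mul_le_mul_of_nonneg_right hA (Nat.cast_nonneg (α := ℝ) F.card)
    linarith
  push_cast
  rw [hcard]
  have hDF : (0 : ℝ) < D.card * F.card := by
    have h1 : (0 : ℝ) < D.card := by exact_mod_cast hD.card_pos
    have h2 : (0 : ℝ) < F.card := by exact_mod_cast hF.card_pos
    positivity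
  have : ε = 5 * δ := by rw [hδ]; ring
  rw [this]
  nlinarith

end Vale.Agent.P196.H743
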